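import Mathlib.Data.Nat.Bitwise
import Vale.Agent.Lib.P052.Rows
import Vale.Agent.Lib.P052.Nbr

/-!
Checks on the packed rows that the kernel carries out. The functions are written with raw recursors
and raw operations on natural numbers, which is what the kernel evaluates fast.
-/

namespace Vale.Agent.Lib.P052

/-- combination of the rows in the list with the base-`2^18` digits of `r` as coefficients -/
def dotR (l : List ℕ) : ℕ → ℕ :=
  List.rec (motive := fun _ => ℕ → ℕ) (fun _ => 0)
    (fun x _ ih r =>
      Nat.add (Nat.mul (Nat.mod r 262144) (Nat.div x 262144)) (ih (Nat.div r 262144))) l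

/-- the sum of the `n` lowest base-`2^18` digits -/
def digSum (n : ℕ) : ℕ → ℕ :=
  Nat.rec (motive := fun _ => ℕ → ℕ) (fun _ => 0)
    (fun _ ih r => Nat.add (Nat.mod r 262144) (ih (Nat.div r 262144))) n

/-- all base-`2^18` digits are at most 18, and there are at most `n` of them -/
def digLe (n : ℕ) : ℕ → Bool :=
  Nat.rec (motive := fun _ => ℕ → Bool) (fun r => Nat.beq r 0)
    (fun _ ih r => Bool.rec (motive := fun _ => Bool) false (ih (Nat.div r 262144))
      (Nat.ble (Nat.mod r 262144) 18)) n

/-- the packed row of ones -/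
def JJ : ℕ := (262144 ^ 416 - 1) / 262143

/-- the packed column `v` -/
def colR (l : List ℕ) : ℕ → ℕ :=
  List.rec (motive := fun _ => ℕ → ℕ) (fun _ => 0)
    (fun x _ ih q => Nat.add (Nat.mod (Nat.div x q) 262144) (Nat.mul 262144 (ih q))) l

/-- column number `k + i` of `L` agrees with the row number `i` of `l` -/
def symR (L l : List ℕ) : ℕ → Bool :=
  List.rec (motive := fun _ => ℕ → Bool) (fun _ => true)
    (fun x _ ih k => Bool.rec (motive := fun _ => Bool) false (ih (Nat.succ k))
      (Nat.beq (colR L (Nat.pow 262144 (Nat.succ k))) (Nat.div x 262144))) l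

/-- the sum of the diagonal digits, from the digit number `k` on -/
def trR (l : List ℕ) : ℕ → ℕ :=
  List.rec (motive := fun _ => ℕ → ℕ) (fun _ => 0)
    (fun x _ ih k => Nat.add (Nat.mod (Nat.div x (Nat.pow 262144 (Nat.succ k))) 262144)
      (ih (Nat.succ k))) l

/-- pack `2 + 4 * bit` -/
def packB (n : ℕ) : ℕ → ℕ :=
  Nat.rec (motive := fun _ => ℕ → ℕ) (fun _ => 0)
    (fun _ ih b => Nat.add (Nat.add 2 (Nat.mul 4 (Nat.mod b 2)))
      (Nat.mul 262144 (ih (Nat.div b 2)))) n

/-- the first 321 digits of row number `k + i` are given by the bits of `NB` and the diagonal entry -/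
def valR (n : ℕ) : List ℕ → ℕ → Bool :=
  Nat.rec (motive := fun _ => List ℕ → ℕ → Bool) (fun _ _ => true)
    (fun _ ih l k => List.rec (motive := fun _ => Bool) false
      (fun x xs _ => Bool.rec (motive := fun _ => Bool) false (ih xs (Nat.succ k))
        (Nat.beq (Nat.mod (Nat.div x 262144) (Nat.pow 262144 321))
          (Nat.add (packB 321 (Nat.shiftRight NB (Nat.mul 321 k)))
            (Nat.mul (Nat.sub 18 (Nat.add 2 (Nat.mul 2 (Nat.div k 320)))) (Nat.pow 262144 k))))) l) n

theorem RT_length : RT.length = 416 := by decide +kernel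

theorem check_square :
    (RT.all fun r => Nat.beq (dotR RT (Nat.div r 262144))
      (Nat.add (Nat.mul 96 (Nat.div r 262144)) (Nat.mul 3456 JJ))) = true := by
  decide +kernel

theorem check_sum : (RT.all fun r => Nat.beq (digSum 416 (Nat.div r 262144)) 1248) = true := by
  decide +kernel

theorem check_le : (RT.all fun r => digLe 416 (Nat.div r 262144)) = true := by
  decide +kernel

theorem check_sym : symR RT RT 0 = true := by
  decide +kernel

theorem check_tr : trR RT 0 = 7296 := by
  decide +kernel

theorem check_val : valR 321 RT 0 = true := by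
  decide +kernel

end Vale.Agent.Lib.P052
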