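import Mathlib
import Vale.Agent.Lib.P052.Nbr

namespace Vale.Agent.Lib.P052

/-- adjacency read off the table -/
def Adj (a b : ℕ) : Prop := NB.testBit (321 * a + b) = true

/-- a bit of `P` (the lowest one, but this is not used) -/
def pick (P : ℕ) : ℕ :=
  Nat.land (Nat.shiftRight TAB (Nat.mul 9 (Nat.mod (Nat.land P (Nat.xor P (Nat.sub P 1))) 347))) 511

/-- run through the bits `v` of `P`, testing `g` on the set of neighbours of `v` in `P` -/
def stepK (g : ℕ → Bool) (fuel : ℕ) : ℕ → Bool :=
  Nat.rec (motive := fun _ => ℕ → Bool) (fun _ => false)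
    (fun _ ih P => Bool.rec (motive := fun _ => Bool)
      (Bool.rec (motive := fun _ => Bool) false
        (ih (Nat.xor P (Nat.pow 2 (pick P))))
        (g (Nat.land P (Nat.shiftRight NB (Nat.mul 321 (pick P))))))
      true (Nat.beq P 0)) fuel

/-- the bit set `P` contains no clique with `k + 1` elements -/
def noK (k : ℕ) : ℕ → Bool :=
  Nat.rec (motive := fun _ => ℕ → Bool) (fun P => Nat.beq P 0) (fun _ ih => stepK ih 322) k

/-- no clique with `k` elements among the bits of `P` -/
def NoC (k P : ℕ) : Prop :=
  ∀ C : Finset ℕ, C.card = k → (∀ a ∈ C, P.testBit a = true) →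
    (∀ a ∈ C, ∀ b ∈ C, a ≠ b → Adj a b) → False

theorem noC_zero {k : ℕ} (hk : 0 < k) : NoC k 0 := by
  intro C hC hP _
  obtain ⟨a, ha⟩ := Finset.card_pos.1 (hC ▸ hk)
  simpa using hP a ha

theorem noC_step {k : ℕ} {g : ℕ → Bool} (hg : ∀ Q, g Q = true → NoC (k + 1) Q) :
    ∀ fuel P, stepK g fuel P = true → NoC (k + 2) P := by
  intro fuel
  induction fuel with
  | zero => intro P h; exact absurd h (by simp [stepK])
  | succ fuel ih =>
    intro P h
    have e : stepK g (fuel + 1) P = Bool.rec (motive := fun _ => Bool)
      (Bool.rec (motive := fun _ => Bool) false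
        (stepK g fuel (Nat.xor P (Nat.pow 2 (pick P))))
        (g (Nat.land P (Nat.shiftRight NB (Nat.mul 321 (pick P))))))
      true (Nat.beq P 0) := rfl
    rw [e] at h
    cases hP : Nat.beq P 0 with
    | true =>
      have : P = 0 := Nat.eq_of_beq_eq_true hP
      subst this
      exact noC_zero (by omega)
    | false =>
      rw [hP] at h
      cases hG : g (Nat.land P (Nat.shiftRight NB (Nat.mul 321 (pick P)))) with
      | false => rw [hG] at h; exact absurd h (by simp)
      | true =>
        rw [hG] at h
        have h1 : stepK g fuel (Nat.xor P (Nat.pow 2 (pick P))) = true := h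
        have h2 := ih _ h1
        have h3 := hg _ hG
        generalize pick P = v at h2 h3
        intro C hC hCP hCA
        by_cases hv : v ∈ C
        · apply h3 (C.erase v)
          · rw [Finset.card_erase_of_mem hv, hC]; rfl
          · intro a ha
            rw [Finset.mem_erase] at ha
            have e1 : Nat.land P (Nat.shiftRight NB (Nat.mul 321 v)) = P &&& (NB >>> (321 * v)) := rfl
            rw [e1, Nat.testBit_and, Nat.testBit_shiftRight, hCP a ha.2]
            have := hCA v hv a ha.2 (Ne.symm ha.1)
            rw [Adj] at this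
            rw [this]; rfl
          · intro a ha b hb hab
            exact hCA a (Finset.mem_of_mem_erase ha) b (Finset.mem_of_mem_erase hb) hab
        · apply h2 C hC _ hCA
          intro a ha
          have hav : a ≠ v := fun h => hv (h ▸ ha)
          have e1 : Nat.xor P (Nat.pow 2 v) = P ^^^ 2 ^ v := rfl
          rw [e1, Nat.testBit_xor, hCP a ha, Nat.testBit_two_pow_of_ne (Ne.symm hav)]
          rfl

theorem noC_of_noK : ∀ k P, noK k P = true → NoC (k + 1) P := by
  intro k
  induction k with
  | zero =>
    intro P h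
    have : P = 0 := Nat.eq_of_beq_eq_true h
    subst this
    exact noC_zero (by omega)
  | succ k ih =>
    intro P h
    exact noC_step ih 322 P h

theorem noK5 : noK 5 (2 ^ 321 - 1) = true := by decide +kernel

/-- every clique has at most five elements -/
theorem clique_le {C : Finset ℕ} (h1 : ∀ a ∈ C, a < 321) (h2 : ∀ a ∈ C, ∀ b ∈ C, a ≠ b → Adj a b) :
    C.card ≤ 5 := by
  by_contra hc
  obtain ⟨D, hD, hD6⟩ := Finset.exists_subset_card_eq (show 6 ≤ C.card by omega)
  refine noC_of_noK 5 _ noK5 D hD6 ?_ (fun a ha b hb => h2 a (hD ha) b (hD hb))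
  intro a ha
  rw [Nat.testBit_two_pow_sub_one]
  exact decide_eq_true (h1 a (hD ha))

end Vale.Agent.Lib.P052
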