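import Mathlib
import Vale.Agent.Lib.P052.Checks

/-!
The entries of the matrix `M + 3 J`, and what the checks say about them.
-/

namespace Vale.Agent.Lib.P052

open Finset

/-- digit `i` of `r` in base `2^18` -/
def dig (r i : ℕ) : ℕ := r / 262144 ^ i % 262144

theorem dig_lt (r i : ℕ) : dig r i < 262144 := Nat.mod_lt _ (by norm_num)

theorem dig_zero (r : ℕ) : dig r 0 = r % 262144 := by simp [dig]

theorem dig_succ (r i : ℕ) : dig r (i + 1) = dig (r / 262144) i := by
  simp only [dig, pow_succ', Nat.div_div_eq_div_mul]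

theorem mod_eq (n r : ℕ) : r % 262144 ^ n = ∑ i ∈ range n, dig r i * 262144 ^ i := by
  induction n with
  | zero => simp [Nat.mod_one]
  | succ n ih =>
    rw [sum_range_succ, ← ih, pow_succ, Nat.mod_mul, dig, mul_comm (262144 ^ n)]

theorem eq_sum {n r : ℕ} (h : r < 262144 ^ n) : r = ∑ i ∈ range n, dig r i * 262144 ^ i := by
  rw [← mod_eq, Nat.mod_eq_of_lt h]

theorem uniq {n : ℕ} {f g : ℕ → ℕ} (hf : ∀ i < n, f i < 262144) (hg : ∀ i < n, g i < 262144)
    (h : ∑ i ∈ range n, f i * 262144 ^ i = ∑ i ∈ range n, g i * 262144 ^ i) :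
    ∀ i < n, f i = g i := by
  induction n generalizing f g with
  | zero => intro i hi; omega
  | succ n ih =>
    rw [sum_range_succ', sum_range_succ'] at h
    have e : ∀ f : ℕ → ℕ, ∑ i ∈ range n, f (i + 1) * 262144 ^ (i + 1) =
        262144 * ∑ i ∈ range n, f (i + 1) * 262144 ^ i := by
      intro f
      rw [mul_sum]
      refine sum_congr rfl fun i _ => ?_
      ring
    rw [e, e] at h
    simp only [pow_zero, mul_one] at h
    have f0 := hf 0 (by omega)
    have g0 := hg 0 (by omega)
    have h0 : f 0 = g 0 := by omega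
    have h1 : ∑ i ∈ range n, f (i + 1) * 262144 ^ i = ∑ i ∈ range n, g (i + 1) * 262144 ^ i := by
      omega
    intro i hi
    rcases i with _ | i
    · exact h0
    · exact ih (f := fun i => f (i + 1)) (g := fun i => g (i + 1))
        (fun i hi => hf (i + 1) (by omega)) (fun i hi => hg (i + 1) (by omega)) h1 i (by omega)

/-- the rows, in packed form -/
def row (v : ℕ) : ℕ := RT.getD v 0 / 262144

/-- the entries of `M + 3 J` -/
def m (v u : ℕ) : ℕ := dig (row v) u

theorem dotR_eq (l : List ℕ) (r : ℕ) :
    dotR l r = ∑ i ∈ range l.length, dig r i * (l.getD i 0 / 262144) := by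
  induction l generalizing r with
  | nil => simp [dotR]
  | cons x l ih =>
    have e : dotR (x :: l) r = (r % 262144) * (x / 262144) + dotR l (r / 262144) := rfl
    rw [e, ih, List.length_cons, sum_range_succ']
    simp only [dig_succ, dig_zero, List.getD_cons_succ, List.getD_cons_zero]
    ring

theorem digSum_eq (n r : ℕ) : digSum n r = ∑ i ∈ range n, dig r i := by
  induction n generalizing r with
  | zero => simp [digSum]
  | succ n ih =>
    have e : digSum (n + 1) r = (r % 262144) + digSum n (r / 262144) := rfl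
    rw [e, ih, sum_range_succ']
    simp only [dig_succ, dig_zero]
    ring

theorem digLe_spec (n r : ℕ) (h : digLe n r = true) : r < 262144 ^ n ∧ ∀ i, dig r i ≤ 18 := by
  induction n generalizing r with
  | zero =>
    have : r = 0 := Nat.eq_of_beq_eq_true h
    subst this
    simp [dig]
  | succ n ih =>
    have e : digLe (n + 1) r = Bool.rec (motive := fun _ => Bool) false
      (digLe n (r / 262144)) (Nat.ble (r % 262144) 18) := rfl
    rw [e] at h
    cases hb : Nat.ble (r % 262144) 18 with
    | false => rw [hb] at h; exact absurd h (by simp)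
    | true =>
      rw [hb] at h
      obtain ⟨h1, h2⟩ := ih _ h
      have h3 : r % 262144 ≤ 18 := Nat.le_of_ble_eq_true hb
      refine ⟨?_, ?_⟩
      · rw [pow_succ]
        omega
      · intro i
        rcases i with _ | i
        · rw [dig_zero]; exact h3
        · rw [dig_succ]; exact h2 i

theorem getD_mem {v : ℕ} (hv : v < 416) : RT.getD v 0 ∈ RT := by
  rw [List.getD_eq_getElem _ _ (by rw [RT_length]; exact hv)]
  exact List.getElem_mem _

theorem row_le {v : ℕ} (hv : v < 416) : row v < 262144 ^ 416 ∧ ∀ i, m v i ≤ 18 :=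
  digLe_spec _ _ (List.all_eq_true.1 check_le _ (getD_mem hv))

theorem m_le {v : ℕ} (hv : v < 416) (u : ℕ) : m v u ≤ 18 := (row_le hv).2 u

theorem row_eq {v : ℕ} (hv : v < 416) : row v = ∑ i ∈ range 416, m v i * 262144 ^ i :=
  eq_sum (row_le hv).1

theorem sum_m {v : ℕ} (hv : v < 416) : ∑ u ∈ range 416, m v u = 1248 := by
  have h := Nat.eq_of_beq_eq_true (List.all_eq_true.1 check_sum _ (getD_mem hv))
  have e := digSum_eq 416 (row v)
  exact e.symm.trans h

theorem JJ_eq : JJ = ∑ i ∈ range 416, 1 * 262144 ^ i := by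
  simp only [one_mul]
  rw [Nat.geomSum_eq (by norm_num)]
  rfl

theorem sum_mul {v x : ℕ} (hv : v < 416) (hx : x < 416) :
    ∑ u ∈ range 416, m v u * m u x = 96 * m v x + 3456 := by
  have h := Nat.eq_of_beq_eq_true (List.all_eq_true.1 check_square _ (getD_mem hv))
  have e := dotR_eq RT (row v)
  have h' : ∑ i ∈ range RT.length, dig (row v) i * (RT.getD i 0 / 262144) =
      96 * row v + 3456 * JJ := e.symm.trans h
  rw [RT_length, JJ_eq] at h'
  have h1 : ∑ i ∈ range 416, dig (row v) i * (RT.getD i 0 / 262144) =
      ∑ y ∈ range 416, (∑ u ∈ range 416, m v u * m u y) * 262144 ^ y := by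
    calc ∑ i ∈ range 416, dig (row v) i * (RT.getD i 0 / 262144)
        = ∑ i ∈ range 416, m v i * ∑ y ∈ range 416, m i y * 262144 ^ y := by
          refine sum_congr rfl fun i hi => ?_
          rw [← row_eq (mem_range.1 hi)]
          rfl
      _ = ∑ i ∈ range 416, ∑ y ∈ range 416, m v i * (m i y * 262144 ^ y) := by
          refine sum_congr rfl fun i _ => ?_
          rw [mul_sum]
      _ = ∑ y ∈ range 416, ∑ i ∈ range 416, m v i * (m i y * 262144 ^ y) := sum_comm
      _ = _ := by
          refine sum_congr rfl fun y _ => ?_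
          rw [Finset.sum_mul]
          refine sum_congr rfl fun i _ => ?_
          ring
  have h2 : 96 * row v + 3456 * ∑ i ∈ range 416, 1 * 262144 ^ i =
      ∑ y ∈ range 416, (96 * m v y + 3456) * 262144 ^ y := by
    rw [row_eq hv, mul_sum, mul_sum, ← sum_add_distrib]
    refine sum_congr rfl fun i _ => ?_
    ring
  rw [h1, h2] at h'
  refine uniq ?_ ?_ h' x hx
  · intro y hy
    calc ∑ u ∈ range 416, m v u * m u y ≤ ∑ u ∈ range 416, 18 * 18 := by
          refine sum_le_sum fun u hu => ?_
          exact Nat.mul_le_mul (m_le hv u) (m_le (mem_range.1 hu) y)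
      _ < 262144 := by simp
  · intro y hy
    have := m_le hv y
    omega

theorem colR_eq (l : List ℕ) (v : ℕ) :
    colR l (262144 ^ (v + 1)) = ∑ i ∈ range l.length, dig (l.getD i 0 / 262144) v * 262144 ^ i := by
  induction l with
  | nil => simp [colR]
  | cons x l ih =>
    have e : colR (x :: l) (262144 ^ (v + 1)) =
      (x / 262144 ^ (v + 1)) % 262144 + 262144 * colR l (262144 ^ (v + 1)) := rfl
    rw [e, ih, List.length_cons, sum_range_succ']
    simp only [List.getD_cons_succ, List.getD_cons_zero, pow_zero, mul_one]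
    rw [mul_sum, ← dig_succ, add_comm]
    refine congrArg₂ _ (sum_congr rfl fun i _ => ?_) rfl
    rw [pow_succ]
    ring

theorem symR_spec (L l : List ℕ) (k : ℕ) (h : symR L l k = true) :
    ∀ i < l.length, colR L (262144 ^ (k + i + 1)) = l.getD i 0 / 262144 := by
  induction l generalizing k with
  | nil => intro i hi; simp at hi
  | cons x l ih =>
    have e : symR L (x :: l) k = Bool.rec (motive := fun _ => Bool) false (symR L l (k + 1))
      (Nat.beq (colR L (262144 ^ (k + 1))) (x / 262144)) := rfl
    rw [e] at h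
    cases hb : Nat.beq (colR L (262144 ^ (k + 1))) (x / 262144) with
    | false => rw [hb] at h; exact absurd h (by simp)
    | true =>
      rw [hb] at h
      intro i hi
      rcases i with _ | i
      · exact Nat.eq_of_beq_eq_true hb
      · have := ih (k + 1) h i (by simpa using hi)
        rw [List.getD_cons_succ, ← this]
        congr 2
        ring

theorem m_symm {v u : ℕ} (hv : v < 416) (hu : u < 416) : m v u = m u v := by
  have h := symR_spec RT RT 0 check_sym v (by rw [RT_length]; exact hv)
  rw [zero_add, colR_eq, RT_length] at h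
  have h' : ∑ i ∈ range 416, m i v * 262144 ^ i = ∑ i ∈ range 416, m v i * 262144 ^ i :=
    h.trans (row_eq hv)
  exact (uniq (fun i _ => dig_lt _ _) (fun i _ => dig_lt _ _) h' u hu).symm

theorem trR_eq (l : List ℕ) (k : ℕ) :
    trR l k = ∑ i ∈ range l.length, dig (l.getD i 0 / 262144) (k + i) := by
  induction l generalizing k with
  | nil => simp [trR]
  | cons x l ih =>
    have e : trR (x :: l) k = (x / 262144 ^ (k + 1)) % 262144 + trR l (k + 1) := rfl
    rw [e, ih, List.length_cons, sum_range_succ']
    simp only [List.getD_cons_succ, List.getD_cons_zero, add_zero]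
    rw [← dig_succ, add_comm]
    refine congrArg₂ _ (sum_congr rfl fun i _ => ?_) rfl
    congr 1
    ring

theorem trace_m : ∑ v ∈ range 416, m v v = 7296 := by
  have h := trR_eq RT 0
  rw [check_tr, RT_length] at h
  simp only [zero_add] at h
  exact h.symm

theorem packB_eq (n b : ℕ) :
    packB n b = ∑ i ∈ range n, (2 + 4 * (b / 2 ^ i % 2)) * 262144 ^ i := by
  induction n generalizing b with
  | zero => simp [packB]
  | succ n ih =>
    have e : packB (n + 1) b = (2 + 4 * (b % 2)) + 262144 * packB n (b / 2) := rfl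
    rw [e, ih, sum_range_succ', mul_sum, add_comm]
    refine congrArg₂ _ (sum_congr rfl fun i _ => ?_) (by simp)
    rw [Nat.div_div_eq_div_mul, pow_succ' 2]
    ring

theorem valR_spec (n : ℕ) (l : List ℕ) (k : ℕ) (h : valR n l k = true) :
    ∀ i < n, i < l.length ∧ (l.getD i 0 / 262144) % 262144 ^ 321 =
      packB 321 (NB >>> (321 * (k + i))) + (18 - (2 + 2 * ((k + i) / 320))) * 262144 ^ (k + i) := by
  induction n generalizing l k with
  | zero => intro i hi; omega
  | succ n ih =>
    rcases l with _ | ⟨x, l⟩
    · exact absurd h (by simp [valR])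
    · have e : valR (n + 1) (x :: l) k = Bool.rec (motive := fun _ => Bool) false
        (valR n l (k + 1)) (Nat.beq ((x / 262144) % 262144 ^ 321)
          (packB 321 (NB >>> (321 * k)) + (18 - (2 + 2 * (k / 320))) * 262144 ^ k)) := rfl
      rw [e] at h
      cases hb : Nat.beq ((x / 262144) % 262144 ^ 321)
          (packB 321 (NB >>> (321 * k)) + (18 - (2 + 2 * (k / 320))) * 262144 ^ k) with
      | false => rw [hb] at h; exact absurd h (by simp)
      | true =>
        rw [hb] at h
        intro i hi
        rcases i with _ | i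
        · exact ⟨by simp, Nat.eq_of_beq_eq_true hb⟩
        · obtain ⟨h1, h2⟩ := ih l (k + 1) h i (by omega)
          refine ⟨by simpa using h1, ?_⟩
          rw [List.getD_cons_succ, h2]
          have : k + 1 + i = k + (i + 1) := by ring
          rw [this]

theorem m_val {v w : ℕ} (hv : v < 321) (hw : w < 321) :
    m v w = 2 + 4 * (NB / 2 ^ (321 * v + w) % 2) +
      (if w = v then 18 - (2 + 2 * (v / 320)) else 0) := by
  obtain ⟨_, h⟩ := valR_spec 321 RT 0 check_val v hv
  rw [zero_add, mod_eq, packB_eq] at h
  have e : (18 - (2 + 2 * (v / 320))) * 262144 ^ v =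
      ∑ i ∈ range 321, (if i = v then 18 - (2 + 2 * (v / 320)) else 0) * 262144 ^ i := by
    simp only [ite_mul, zero_mul]
    rw [sum_ite_eq' (range 321) v, if_pos (mem_range.2 hv)]
  rw [e, ← sum_add_distrib] at h
  simp only [← add_mul] at h
  have := uniq (fun i _ => dig_lt _ _) (fun i _ => ?_) h w hw
  · rw [pow_add, ← Nat.div_div_eq_div_mul, ← Nat.shiftRight_eq_div_pow NB]
    exact this
  · have := Nat.mod_lt (NB >>> (321 * v) / 2 ^ i) (show 0 < 2 by norm_num)
    split_ifs <;> omega

end Vale.Agent.Lib.P052
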