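import Mathlib

/-!
A symmetric idempotent matrix is the Gram matrix of vectors in a Euclidean space whose dimension is
the trace.
-/

namespace Vale.Agent.Lib.P052

open Module

theorem exists_vectors {n k : ℕ} (P : Matrix (Fin n) (Fin n) ℝ) (hs : P.transpose = P)
    (hi : P * P = P) (ht : P.trace = k) :
    ∃ a : Fin n → EuclideanSpace ℝ (Fin k), ∀ v w, inner ℝ (a v) (a w) = P v w := by
  classical
  set f : EuclideanSpace ℝ (Fin n) →ₗ[ℝ] EuclideanSpace ℝ (Fin n) := Matrix.toLpLin 2 2 P with hf
  have hfi : IsIdempotentElem f := by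
    have := Matrix.toLpLin_mul_same 2 P P
    rw [hi] at this
    exact this.symm
  have htr : LinearMap.trace ℝ _ f = P.trace := by
    rw [hf, Matrix.toLpLin_eq_toLin]
    exact Matrix.trace_toLin_eq P _
  have hrk : finrank ℝ (LinearMap.range f) = k := by
    have h := (LinearMap.IsIdempotentElem.isProj_range f hfi).trace
    rw [htr, ht] at h
    exact_mod_cast h.symm
  let b := (stdOrthonormalBasis ℝ (LinearMap.range f)).reindex (finCongr hrk)
  refine ⟨fun v => b.repr ⟨f (EuclideanSpace.single v 1), LinearMap.mem_range_self _ _⟩, ?_⟩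
  intro v w
  rw [LinearIsometryEquiv.inner_map_map, Submodule.coe_inner, EuclideanSpace.inner_eq_star_dotProduct]
  simp only [hf, Matrix.ofLp_toLpLin, Matrix.toLin'_apply, PiLp.ofLp_single,
    Matrix.mulVec_single_one, star_trivial]
  rw [← congrFun (congrFun hi v) w, Matrix.mul_apply, dotProduct]
  refine Finset.sum_congr rfl fun u _ => ?_
  rw [Matrix.col_apply, Matrix.col_apply, mul_comm]
  congr 1
  rw [← congrFun (congrFun hs v) u, Matrix.transpose_apply]

end Vale.Agent.Lib.P052
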